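import Vale.Agent.N032X.Main

/-! Colourable proportions of finite unit distance graphs are densities of measurable sets; the
fractional chromatic number of the plane; measurable homomorphisms to finite graphs. -/

open MeasureTheory Vale.Agent.N032X

namespace Vale.Agent.Results.P032.A0Fractional

theorem result :
    (∀ k, ratio k = dens k ∧
      ∃ A : Fin k → Set Plane, Family A ∧ upperDensity (⋃ i, A i) = dens k) ∧
    (frac Set.univ = (dens 1)⁻¹ ∧ ⨆ S : Finset Plane, frac S = (dens 1)⁻¹) ∧
    ∀ (k : ℕ) (H : SimpleGraph (Fin k)), Nonempty (unitGraph →g H) →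
      ∃ f : unitGraph →g H, ∀ i, NullMeasurableSet (f ⁻¹' {i}) volume :=
  ⟨fun k => ⟨ratio_eq_dens k, dens_attained k⟩, frac_eq, hom_measurable⟩

end Vale.Agent.Results.P032.A0Fractional
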