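import Vale.Agent.N032Y.Main

/-! Colourability of the plane is decided by an explicit family of finite colouring problems on
integer points, with an explicit threshold. -/

open Filter Vale.Agent.N032Y

namespace Vale.Agent.Results.P032.A0Lattice

theorem result :
    (∀ k, Col k ↔
      ∀ N M : ℕ, 4 ≤ N → ∃ c : ℤ × ℤ → Fin k, mono N M c ^ 4 ≤ 10 ^ 12 * N ^ 3 * M ^ 8) ∧
    List.TFAE [IsLeast {k | Col k} 7,
      ∃ N : ℕ, 4 ≤ N ∧ ∀ c : ℤ × ℤ → Fin 6, 10 ^ 12 * N ^ 19 < mono N (N ^ 2) c ^ 4,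
      ∀ᶠ N : ℕ in atTop, ∀ c : ℤ × ℤ → Fin 6, 10 ^ 12 * N ^ 19 < mono N (N ^ 2) c ^ 4] ∧
    ∀ N M : ℕ, 4 ≤ N → mono N M (fun _ => (0 : Fin 1)) ≤ 101 * N * M ^ 2 :=
  ⟨fun k => (tfae k).out 0 1, seven_tfae, fun N M h => by exact_mod_cast total N M h _⟩

end Vale.Agent.Results.P032.A0Lattice
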