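import Vale.Agent.N032.Final

namespace Vale.Agent.Results.P032.A0NumberField

/-- (1) If a subfield `F` of `ℝ` contains `√d` for some `d ≡ 7 (mod 8)` and, for each prime
`p ≡ 3 (mod 4)`, `√d` for some non-residue `d` mod `p`, then the plane is `k`-colourable iff all
finite sets of points with coordinates in `F` are.
(2) A finite set with coordinates in the number field `ℚ(√(4p-1) : p ≤ n prime, p ≢ 1 mod 4)`
has the chromatic number of the plane. -/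
theorem result :
    (∀ F : Subfield ℝ, (∃ d : ℕ, d % 8 = 7 ∧ √(d : ℝ) ∈ F) →
      (∀ p : ℕ, p.Prime → p % 4 = 3 → ∃ d : ℕ, ¬ IsSquare (d : ZMod p) ∧ √(d : ℝ) ∈ F) →
      ∀ k : ℕ, (∃ c : EuclideanSpace ℝ (Fin 2) → Fin k, ∀ x y, dist x y = 1 → c x ≠ c y) ↔
        ∀ S : Finset (EuclideanSpace ℝ (Fin 2)), (∀ x ∈ S, ∀ i, x i ∈ F) →
          ∃ c : EuclideanSpace ℝ (Fin 2) → Fin k,
            ∀ x ∈ S, ∀ y ∈ S, dist x y = 1 → c x ≠ c y) ∧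
    ∃ (n : ℕ) (S : Finset (EuclideanSpace ℝ (Fin 2))),
      (∀ x ∈ S, ∀ i, x i ∈ Subfield.closure
        {r : ℝ | ∃ p : ℕ, p.Prime ∧ p ≤ n ∧ p % 4 ≠ 1 ∧ r = √(4 * p - 1)}) ∧
      ∀ (k : ℕ) (c : EuclideanSpace ℝ (Fin 2) → Fin k),
        (∀ x ∈ S, ∀ y ∈ S, dist x y = 1 → c x ≠ c y) →
        ∃ c' : EuclideanSpace ℝ (Fin 2) → Fin k, ∀ x y, dist x y = 1 → c' x ≠ c' y :=
  ⟨N032.field_iff, N032.finite_set.imp fun _ => Exists.imp fun _ h =>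
    ⟨h.1, fun k c hc => (h.2 k c hc).2⟩⟩

end Vale.Agent.Results.P032.A0NumberField
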